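import Vale.Agent.P221X.TB.Blk
import Vale.Agent.P221X.TA.Mid
import Vale.Agent.P251.X.Split

/-!
# P221X, TOP-B: the middle data from the output of TOP-A
-/

set_option linter.unusedSectionVars false

noncomputable section

open CategoryTheory MonoidalCategory Limits Pretriangulated MulOpposite

namespace Vale.Agent.P221X.TB

open Vale.Agent.P251 Vale.Agent.P251.T Vale.Agent.P251.S NM

universe u

variable {T : Type u} [Category.{0} T] [Preadditive T] [HasZeroObject T] [HasShift T ℤ]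
  [∀ n : ℤ, (shiftFunctor T n).Additive] [Pretriangulated T] [IsTriangulated T]
  [MonoidalCategory T] [SymmetricCategory T] [TensorTriangulated T] [MonoidalClosed T]
  [HasCoproducts.{0} T] [HasProducts.{0} T] [StableCat T]

variable {p : ℕ} {F : Type} [Field F] {D : GD p F} {R : Type} [Ring R] [Algebra F R]
  {S : RD D R} {q : ℤ} {Ke : T} {Le : LocFunctor Ke}

theorem not_res {s n : ℤ} (hq : 4 ≤ q) (h : n = s - 1 ∨ n = s - 2) : ¬ Res q s n := by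
  rintro (h' | h') <;> have := Int.le_abs_of_dvd (by omega) h' <;>
    rw [abs_of_neg (by omega)] at this <;> omega

theorem res_two {s n : ℤ} (hq : 4 ≤ q) : ¬ Res q s n ∨ ¬ Res q (s - 2) n := by
  by_contra h
  push Not at h
  obtain ⟨h | h, h' | h'⟩ := h <;> have := Int.le_abs_of_dvd (by omega) (dvd_sub h' h) <;>
    rw [abs_of_pos (by omega)] at this <;> omega

/-- `δ : M' ⟶ S^n` is the top cell of a Moore spectrum -/
structure Test (p : ℕ) (n : ℤ) {M' : T} (δ : M' ⟶ Sph T n) : Prop where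
  inj : ∀ {Z : T} (x : Sph T n ⟶ Z), δ ≫ x = 0 → ∃ x' : Sph T n ⟶ Z, x = (p : ℤ) • x'
  surj : ∀ {Z : T}, HZ (Sph T (n - 1)) Z → ∀ x : M' ⟶ Z, ∃ x', x = δ ≫ x'

theorem exists_test {M : T} {iM : 𝟙_ T ⟶ M} {δM : M ⟶ (𝟙_ T)⟦(1 : ℤ)⟧}
    (h : Triangle.mk ((p : ℤ) • 𝟙 (𝟙_ T)) iM δM ∈ distTriang T) (n : ℤ) :
    ∃ δ : M⟦n - 1⟧ ⟶ Sph T n, Test p n δ := by
  obtain ⟨t, a, w, ε, ht, hT⟩ : ∃ (t : Sph T (n - 1) ⟶ Sph T (n - 1)) (a : Sph T (n - 1) ⟶ M⟦n - 1⟧)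
      (w : M⟦n - 1⟧ ⟶ (Sph T (n - 1))⟦(1 : ℤ)⟧) (ε : ℤ), t = (p : ℤ) • ε • 𝟙 _ ∧
      Triangle.mk t a w ∈ distTriang T :=
    ⟨_, _, _, (n - 1).negOnePow, by
      change (n - 1).negOnePow • ((p : ℤ) • 𝟙 (𝟙_ T))⟦n - 1⟧' = _
      rw [Functor.map_zsmul, (shiftFunctor T _).map_id, Units.smul_def, smul_comm],
      Triangle.shift_distinguished _ h (n - 1)⟩
  refine ⟨w ≫ (sphI (sub_add_cancel n 1)).inv, fun {Z} x hx => ?_, fun {Z} hZ x => ?_⟩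
  · obtain ⟨g, hg⟩ : ∃ g : (Sph T (n - 1))⟦(1 : ℤ)⟧ ⟶ Z,
        (sphI (sub_add_cancel n 1)).inv ≫ x = (-t⟦(1 : ℤ)⟧') ≫ g :=
      Triangle.yoneda_exact₂ _ (rot_of_distTriang _ (rot_of_distTriang _ hT)) _
        ((Category.assoc _ _ _).symm.trans hx)
    refine ⟨-(ε • (sphI (sub_add_cancel n 1)).hom ≫ g), ?_⟩
    rw [Iso.inv_comp_eq] at hg
    rw [hg, ht]
    simp
  · obtain ⟨g, hg⟩ : ∃ g : (Sph T (n - 1))⟦(1 : ℤ)⟧ ⟶ Z, x = w ≫ g :=
      Triangle.yoneda_exact₃ _ hT x (hZ _)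
    exact ⟨(sphI (sub_add_cancel n 1)).hom ≫ g, by
      rw [Category.assoc, Iso.inv_hom_id_assoc]; exact hg⟩

theorem Test.hz {n : ℤ} {M' Z : T} {δ : M' ⟶ Sph T n} (h : Test p n δ) (h₀ : HZ (Sph T n) Z)
    (h₁ : HZ (Sph T (n - 1)) Z) : HZ M' Z := fun x => by
  obtain ⟨x, rfl⟩ := h.surj h₁ x
  rw [h₀ x, comp_zero]

theorem Gen.gen {J : T} {n : ℤ} {z : Sph T n ⟶ J} (hz : Gen z) : TA.Gen z := fun I x => by
  classical
  obtain ⟨t, g, rfl⟩ := cpt n _ x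
  choose k hk using fun i => hz (g i)
  refine ⟨∑ i ∈ t, Finsupp.single i (k i), ?_⟩
  rw [TA.cmb, map_sum]
  exact Finset.sum_congr rfl fun i _ => by
    rw [Finsupp.linearCombination_single, hk i, Preadditive.zsmul_comp]

theorem comp_cmb {N N' J : T} (a : N' ⟶ N) (z : N ⟶ J) {I : Type} (n : I →₀ ℤ) :
    a ≫ TA.cmb z n = TA.cmb (a ≫ z) n := by
  simp only [TA.cmb, Finsupp.linearCombination_apply, Finsupp.sum, Preadditive.comp_sum,
    Preadditive.comp_zsmul, Category.assoc]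

variable {Z : T} {lam : R → (Z ⟶ Z)} {e : Z ⟶ Z} {s : ℤ}

namespace Blk

variable (B : Blk S q Le Z lam e s)

section kap

variable [CharP F p] {n : ℤ} (h : Res q s n) (h' : ¬ Res q s (n - 1)) {M' : T}
  {δ : M' ⟶ Sph T n} (hδ : Test p n δ)

include B h h' hδ in
theorem bij_δ : Function.Bijective (Preadditive.leftComp (Le.L.obj Z) δ) := by
  refine ⟨(injective_iff_map_eq_zero _).2 fun x hx => ?_, fun x => ?_⟩
  · obtain ⟨x, rfl⟩ := hδ.inj x hx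
    refine (B.k n h).injective ?_
    rw [map_zsmul, map_zero, ← Int.cast_smul_eq_zsmul F, Int.cast_natCast, CharP.cast_eq_zero,
      zero_smul]
  · obtain ⟨x, rfl⟩ := hδ.surj (B.vanL _ h') x
    exact ⟨x, rfl⟩

/-- the coordinate on `[M', L Z]` -/
def kap : (M' ⟶ Le.L.obj Z) →+ KK F :=
  ((AddEquiv.ofBijective _ (B.bij_δ h h' hδ)).symm.trans (B.k n h)).toAddMonoidHom

theorem kap_δ (x : Sph T n ⟶ Le.L.obj Z) : B.kap h h' hδ (δ ≫ x) = B.k n h x :=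
  congrArg (B.k n h) ((AddEquiv.ofBijective _ (B.bij_δ h h' hδ)).symm_apply_apply x)

theorem kap_lam (x : M' ⟶ Le.L.obj Z) (r : R) :
    B.kap h h' hδ (x ≫ Le.L.map (lam r)) = S.op r (B.kap h h' hδ x) := by
  obtain ⟨x, rfl⟩ := hδ.surj (B.vanL _ h') x
  rw [Category.assoc, kap_δ, kap_δ, B.k_lam]

theorem kap_lat (hs : s ≤ n) :
    ∃ N : ℕ, ∀ x : M' ⟶ Z, B.kap h h' hδ (x ≫ Le.u _) ∈ KK.ge (-N : ℤ) := by
  obtain ⟨N, hN⟩ := B.range n h hs
  refine ⟨N, fun x => ?_⟩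
  obtain ⟨x, rfl⟩ := hδ.surj (B.van _ h') x
  rw [Category.assoc, kap_δ]
  exact (hN _).2 ⟨x, rfl⟩

end kap

variable {J : T} (hP : Pair q Le J Z s) {n₀ : ℤ} (h₀ : Res q s n₀) {z₀ : Sph T n₀ ⟶ J}
  (hz₀ : Gen z₀)

/-- the map `J ⟶ L Z` with a given coordinate -/
def G : KK F ≃+ (J ⟶ Le.L.obj Z) := (B.k n₀ h₀).symm.trans
  (AddEquiv.ofBijective (Preadditive.leftComp _ z₀) (hP n₀ h₀ z₀ hz₀)).symm

theorem k_G (f : KK F) : B.k n₀ h₀ (z₀ ≫ B.G hP h₀ hz₀ f) = f := by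
  have : z₀ ≫ B.G hP h₀ hz₀ f = (B.k n₀ h₀).symm f := AddEquiv.apply_symm_apply
    (AddEquiv.ofBijective (Preadditive.leftComp _ z₀) (hP n₀ h₀ z₀ hz₀)) _
  rw [this, AddEquiv.apply_symm_apply]

theorem G_lam (f : KK F) (r : R) :
    B.G hP h₀ hz₀ f ≫ Le.L.map (lam r) = B.G hP h₀ hz₀ (S.op r f) :=
  (hP n₀ h₀ z₀ hz₀).1 ((B.k n₀ h₀).injective (by
    change B.k n₀ h₀ (z₀ ≫ _) = B.k n₀ h₀ (z₀ ≫ _)
    rw [k_G, ← Category.assoc, B.k_lam, k_G]))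

theorem schur (Al : AlgA S) {n : ℤ} (h : Res q s n) {z : Sph T n ⟶ J} (hz : Gen z) :
    ∃ c : F, c ≠ 0 ∧ ∀ f, B.k n h (z ≫ B.G hP h₀ hz₀ f) = c • f := by
  let φ : KK F ≃+ KK F := ((B.G hP h₀ hz₀).trans
    (AddEquiv.ofBijective (Preadditive.leftComp _ z) (hP n h z hz))).trans (B.k n h)
  have hφ : ∀ f, φ f = B.k n h (z ≫ B.G hP h₀ hz₀ f) := fun f => rfl
  obtain ⟨c, hc⟩ := Al.schur φ.toAddMonoidHom fun r f => by
    change φ _ = S.op r (φ f)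
    rw [hφ, hφ, ← B.k_lam, Category.assoc, G_lam]
  exact ⟨c, fun h0 => one_ne_zero (φ.injective (by
    rw [map_zero, show φ 1 = c • 1 from hc 1, h0, zero_smul])), hc⟩

variable {P : T} {a : P ⟶ Z} {r : Z ⟶ P} (har : a ≫ r = 𝟙 P) (hra : r ≫ a = e)

/-- the map `J ⟶ L P` with a given coordinate -/
def g (r : Z ⟶ P) : KK F →+ (J ⟶ Le.L.obj P) :=
  (Preadditive.rightComp _ (Le.L.map r)).comp (B.G hP h₀ hz₀).toAddMonoidHom

theorem g_apply (f : KK F) : B.g hP h₀ hz₀ r f = B.G hP h₀ hz₀ f ≫ Le.L.map r := rfl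

include har hra in
theorem g_th {θ : R} (hθ : e ≫ lam θ = lam θ ≫ e) (f : KK F) :
    B.g hP h₀ hz₀ r f ≫ Le.L.map (a ≫ lam θ ≫ r) = B.g hP h₀ hz₀ r (S.op θ f) := by
  have her : e ≫ r = r := by rw [← hra, Category.assoc, har, Category.comp_id]
  rw [g_apply, g_apply, ← G_lam, Category.assoc, Category.assoc, ← Le.L.map_comp, ← Le.L.map_comp,
    reassoc_of% hra, reassoc_of% hθ, her]

include hra in
theorem k_g {f : KK F} (hf : f ∈ KK.inv (p + 1)) :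
    B.k n₀ h₀ (z₀ ≫ B.g hP h₀ hz₀ r f ≫ Le.L.map a) = f := by
  rw [g_apply, Category.assoc, ← Le.L.map_comp, hra, ← Category.assoc, B.k_e, k_G,
    KK.prj_of_mem hf]

include har hra in
theorem crd (Al : AlgA S) {n : ℤ} (h : Res q s n) (hs : s ≤ n) {z : Sph T n ⟶ J} (hz : Gen z) :
    TA.Crd p Le (Sph T n) P fun f => z ≫ B.g hP h₀ hz₀ r f := by
  obtain ⟨c, hc0, hc⟩ := B.schur hP h₀ hz₀ Al h hz
  have hk : ∀ f ∈ KK.inv (p + 1), B.k n h ((z ≫ B.g hP h₀ hz₀ r f) ≫ Le.L.map a) = c • f :=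
    fun f hf => by
      rw [g_apply, Category.assoc, Category.assoc, ← Le.L.map_comp, hra, ← Category.assoc, B.k_e,
        hc, KK.prj_of_mem (Submodule.smul_mem _ _ hf)]
  refine ⟨fun x => ?_, fun f hf h0 => ?_, ?_, fun x hx => ?_⟩
  · refine ⟨c⁻¹ • B.k n h (x ≫ Le.L.map a), Submodule.smul_mem _ _ ?_, ?_⟩
    · have hae : a ≫ e = a := by rw [← hra, reassoc_of% har]
      have : B.k n h (x ≫ Le.L.map a) = KK.prj (p + 1) (B.k n h (x ≫ Le.L.map a)) := by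
        rw [← B.k_e, Category.assoc, ← Le.L.map_comp, hae]
      rw [this]
      exact KK.prj_mem_inv _ _
    · have : z ≫ B.G hP h₀ hz₀ (c⁻¹ • B.k n h (x ≫ Le.L.map a)) = x ≫ Le.L.map a :=
        (B.k n h).injective (by rw [hc, smul_smul, mul_inv_cancel₀ hc0, one_smul])
      change z ≫ _ = x
      rw [g_apply, ← Category.assoc, this, Category.assoc, ← Le.L.map_comp, har, Le.L.map_id,
        Category.comp_id]
  · have := hk f hf
    rw [show z ≫ B.g hP h₀ hz₀ r f = 0 from h0, zero_comp, map_zero] at this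
    exact (smul_eq_zero.1 this.symm).resolve_left hc0
  · obtain ⟨N, hN⟩ := B.range n h hs
    refine ⟨N, fun f hf => ⟨fun h1 => ?_, fun ⟨x, hx⟩ => ?_⟩⟩
    · obtain ⟨x, hx⟩ := (hN _).1 (Submodule.smul_mem _ c h1)
      refine ⟨x ≫ r, ?_⟩
      rw [g_apply, ← Category.assoc z, ← (B.k n h).injective (hx.trans (hc f).symm),
        Category.assoc, Category.assoc, Le.u_naturality]
    · have h1 : c • f ∈ KK.ge (-N : ℤ) := (hN _).2 ⟨x ≫ a, by
        rw [← hk f hf, ← show x ≫ Le.u P = z ≫ B.g hP h₀ hz₀ r f from hx, Category.assoc,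
          Category.assoc, Le.u_naturality]⟩
      have := Submodule.smul_mem _ c⁻¹ h1
      rwa [smul_smul, inv_mul_cancel₀ hc0, one_smul] at this
  · have := B.inj n (x ≫ a) (by
      rw [Category.assoc, ← Le.u_naturality, ← Category.assoc, hx, zero_comp])
    rw [← Category.comp_id x, ← har, ← Category.assoc, this, zero_comp]

end Blk

theorem hz_retract {N P Z : T} {a : P ⟶ Z} {r : Z ⟶ P} (har : a ≫ r = 𝟙 P) (h : HZ N Z) :
    HZ N P := fun x => by rw [← Category.comp_id x, ← har, ← Category.assoc, h (x ≫ a), zero_comp]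

theorem map_ret (G : T ⥤ T) {P Z : T} {a : P ⟶ Z} {r : Z ⟶ P} (har : a ≫ r = 𝟙 P) :
    G.map a ≫ G.map r = 𝟙 _ := by rw [← G.map_comp, har, G.map_id]

theorem acy {X V : T} (h : IsZero (X ⊗ V)) : Acyclic V X := h.of_iso (β_ V X)

theorem acy' {X V : T} (h : Acyclic V X) : IsZero (X ⊗ V) := IsZero.of_iso h (β_ X V)

end Vale.Agent.P221X.TB

namespace Vale.Agent.P221X.TA

open Vale.Agent.P251 Vale.Agent.P251.T Vale.Agent.P251.S NM TB

universe u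

variable {T : Type u} [Category.{0} T] [Preadditive T] [HasZeroObject T] [HasShift T ℤ]
  [∀ n : ℤ, (shiftFunctor T n).Additive] [Pretriangulated T] [IsTriangulated T]
  [MonoidalCategory T] [SymmetricCategory T] [TensorTriangulated T] [MonoidalClosed T]
  [HasCoproducts.{0} T] [HasProducts.{0} T] [StableCat T]

variable {p : ℕ} {F : Type} [Field F] {D : GD p F} {R : Type} [Ring R] [Algebra F R]
  {S : RD D R} {Al : AlgA S} {q : ℤ} {b V : T} (X : P221X.TA Al q b V)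

/-- the block `A` -/
def blk : Blk S q X.Le X.D.P X.D.lam X.e 0 where
  van n hn := X.πA_van n (fun h => hn ((res_zero q n).2 (.inl h)))
    fun h => hn ((res_zero q n).2 (.inr h))
  vanL n hn := X.πV_van n (fun h => hn ((res_zero q n).2 (.inl h)))
    fun h => hn ((res_zero q n).2 (.inr h))
  k n hn := X.k n ((res_zero q n).1 hn)
  k_lam _ _ := X.k_lam _ _
  k_e _ _ := X.k_e _ _
  inj := X.πA_inj
  range _ _ := X.πA_range _ _

theorem jl : JL p q X.Ke V X.J 0 where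
  pJ := X.pJ
  loc := X.J_loc
  zero := acy X.J_V
  van n hn := X.πJ_van n (fun h => hn ((res_zero q n).2 (.inl h)))
    fun h => hn ((res_zero q n).2 (.inr h))
  gen n := by
    by_cases h : q ∣ n ∨ q ∣ n - 1
    · obtain ⟨z, hz, -⟩ := X.πJ_gen n h
      exact ⟨z, hz⟩
    · push Not at h
      exact ⟨0, fun x => ⟨0, by rw [X.πJ_van n h.1 h.2 x, zero_smul]⟩⟩

theorem pair : Pair q X.Le X.J X.D.P 0 := fun n hn _ hz => by
  obtain ⟨z', -, h⟩ := X.πJ_gen n ((res_zero q n).1 hn)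
  exact hz.bij h

theorem pair' {s t : ℤ} (h : s = t + 1 ∨ s = t + 1 + -q) :
    Pair q X.Le (X.J⟦s⟧) (X.D.P⟦t⟧⟦(1 : ℤ)⟧) (t + 1) := by
  rcases h with h | h
  · exact (X.pair.shift s (zero_add s)).iso (shAdd _ t 1 s h.symm).symm (by simp [h])
  · exact (X.pair.shift s (zero_add s)).iso ((shiftFunctor T s).mapIso X.per.symm ≪≫
      shAdd _ q s (t + 1) (by omega) ≪≫ (shAdd _ t 1 _ rfl).symm) (by simp [h])

theorem rig' [Finite F] [CharP F p] (h1 : 1 < p) (hF : p < Nat.card F) (s : ℤ)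
    (h' : ¬ Res q s (s - 1)) {δ : X.M⟦s - 1⟧ ⟶ Sph T s} (hδ : Test p s δ)
    (y : X.D.P'⟦s⟧ ⟶ X.D.P⟦s⟧) (hy : y ≫ X.e⟦s⟧' = y)
    (hne : op ((X.D.shift s).eps y) • Al.O.inv Al.θ ≠ 0) :
    (Set.range fun x : X.M⟦s - 1⟧ ⟶ X.Le.L.obj (X.D.P'⟦s⟧) => Al.rho
      ((X.blk.shift s (zero_add s)).kap (Res.self q s) h' hδ (x ≫ X.Le.L.map y))).Infinite := by
  obtain ⟨y, rfl⟩ := (shiftFunctor T s).map_surjective y
  rw [TriData.shift_eps] at hne
  rw [← Functor.map_comp] at hy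
  replace hy := (shiftFunctor T s).map_injective hy
  obtain ⟨g, r', hg, hs⟩ := X.sem y
  rw [hy] at hg hs
  replace hs : ∀ n (_ : n = 0) h x, X.blk.k n h (x ≫ X.Le.L.map g) = KK.prj (p + 1)
      (S.op (X.D.eps y) (X.blk.k n h x) + S.op r' (X.τ (X.blk.k n h x))) := by
    rintro _ rfl h x
    exact hs _ x
  refine (rig_sem Al h1 hF X.τ X.τ_smul _ r' hne).mono ?_
  rintro _ ⟨f, rfl⟩
  have h0 : Res q 0 (s - s) := (Res.sub (zero_add s)).2 (Res.self q s)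
  obtain ⟨x', rfl⟩ := (X.blk.k (s - s) h0).surjective f
  let a : X.M⟦s - 1⟧ ≅ X.M⟦(-1 : ℤ)⟧⟦s⟧ := (shAdd _ _ _ _ (by ring)).symm
  obtain ⟨w, hw⟩ := (shL a X.Le X.D.P).surjective (δ ≫ shL (sphI (sub_add_cancel s s)) X.Le _ x')
  obtain ⟨x, rfl⟩ := X.y₀_surj w
  refine ⟨shL a X.Le _ x, ?_⟩
  change Al.rho _ = Al.rho _
  rw [shL_map] at hw
  rw [← hs _ (sub_self s), hg, Functor.map_comp, Functor.map_comp, ← Category.assoc, hw,
    Category.assoc, Blk.kap_δ, ← shL_map, Blk.shift_k]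

/-- the degrees of the summands -/
def dg {Q : ℕ} (i : ZMod Q) : ℤ := -(i.val : ℤ) - 2

theorem dg_succ {Q : ℕ} [NeZero Q] [Fact (1 < Q)] (i : ZMod Q) :
    dg i = dg (i + 1) + 1 ∨ dg i = dg (i + 1) + 1 + -(Q : ℤ) := by
  have h := ZMod.val_lt i
  rw [dg, dg, ZMod.val_add, ZMod.val_one]
  rcases Nat.lt_or_ge (i.val + 1) Q with h1 | h1
  · rw [Nat.mod_eq_of_lt h1]; left; push_cast; ring
  · rw [show i.val + 1 = Q by omega, Nat.mod_self]; right; omega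

theorem dg_dvd {Q : ℕ} [NeZero Q] [Fact (1 < Q)] (i : ZMod Q) :
    (Q : ℤ) ∣ dg (i + 1) + 1 - dg i := by
  rcases dg_succ i with h | h <;> rw [h] <;> simp

theorem dg_le {Q : ℕ} (i : ZMod Q) : dg i ≤ -2 := by rw [dg]; omega

theorem md_of_ta' [Finite F] [CharP F p] (h1 : 1 < p) (hF : p < Nat.card F) {Q : ℕ} (hQ : 4 ≤ Q)
    (X : P221X.TA Al Q b V) : Nonempty (MD Al b V) := by
  have _ : NeZero Q := ⟨by omega⟩
  have _ : Fact (1 < Q) := ⟨by omega⟩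
  have hq : (4 : ℤ) ≤ Q := by exact_mod_cast hQ
  obtain ⟨A', a, r, har, hra⟩ := P251.X.exists_split X.e X.e_idem
  have har' : ∀ s : ℤ, a⟦s⟧' ≫ r⟦s⟧' = 𝟙 _ := fun s => map_ret _ har
  have hra' : ∀ s : ℤ, r⟦s⟧' ≫ a⟦s⟧' = X.e⟦s⟧' := fun s => by rw [← Functor.map_comp, hra]
  have har'' : ∀ s : ℤ, a⟦s⟧'⟦(1 : ℤ)⟧' ≫ r⟦s⟧'⟦(1 : ℤ)⟧' = 𝟙 _ := fun s => map_ret _ (har' s)
  have hra'' : ∀ s : ℤ, r⟦s⟧'⟦(1 : ℤ)⟧' ≫ a⟦s⟧'⟦(1 : ℤ)⟧' = X.e⟦s⟧'⟦(1 : ℤ)⟧' := fun s => by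
    rw [← Functor.map_comp, hra']
  have hθ : ∀ s : ℤ, X.e⟦s⟧' ≫ (X.D.lam Al.θ)⟦s⟧' = (X.D.lam Al.θ)⟦s⟧' ≫ X.e⟦s⟧' := fun s => by
    rw [← Functor.map_comp, X.e_θ, Functor.map_comp]
  have hθ' : ∀ s : ℤ, X.e⟦s⟧'⟦(1 : ℤ)⟧' ≫ (X.D.lam Al.θ)⟦s⟧'⟦(1 : ℤ)⟧' =
      (X.D.lam Al.θ)⟦s⟧'⟦(1 : ℤ)⟧' ≫ X.e⟦s⟧'⟦(1 : ℤ)⟧' := fun s => by
    rw [← Functor.map_comp, hθ, Functor.map_comp]
  choose Y inn out dist using fun s : ℤ =>
    distinguished_cocone_triangle (a⟦s⟧' ≫ (X.D.lam Al.θ)⟦s⟧' ≫ r⟦s⟧')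
  choose δ hδ using exists_test X.distM
  let B := fun s : ℤ => X.blk.shift s (zero_add s)
  let B' := fun s : ℤ => (B s).shift 1 rfl
  have hJ := fun s : ℤ => X.jl.shift s (zero_add s)
  have hP := fun s : ℤ => X.pair.shift s (zero_add s)
  have hP' := fun i : ZMod Q => X.pair' (dg_succ i)
  choose z hz using fun s : ℤ => (hJ s).gen s
  have hr : ∀ (i : ZMod Q) n, Res Q (dg (i + 1) + 1) n ↔ Res Q (dg i) n :=
    fun i n => Res.congr (dg_dvd i) n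
  have r₀ : ∀ s : ℤ, Res Q s s := Res.self _
  have r₁ : ∀ s : ℤ, ¬ Res Q s (s - 1) := fun s => not_res hq (.inl rfl)
  have r₀' : ∀ i : ZMod Q, Res Q (dg (i + 1) + 1) (dg i) := fun i => (hr i _).2 (r₀ _)
  have r₁' : ∀ i : ZMod Q, ¬ Res Q (dg (i + 1) + 1) (dg i - 1) := fun i => mt (hr i _).1 (r₁ _)
  have two : ∀ d (i : ZMod Q), ¬ Res Q (dg i) d ∨ ¬ Res Q (dg (i + 1 + 1)) d := fun d i => by
    rw [Res.congr (s := dg (i + 1 + 1)) (s' := dg i - 2) (by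
      have := dvd_add (dg_dvd i) (dg_dvd (i + 1))
      rwa [show dg (i + 1) + 1 - dg i + (dg (i + 1 + 1) + 1 - dg (i + 1)) =
        dg (i + 1 + 1) - (dg i - 2) by ring] at this)]
    exact res_two hq
  have hL : ∀ {K : T}, Acyclic K (X.Le.L.obj X.D.P) → ∀ s : ℤ, Acyclic K (X.Le.L.obj (A'⟦s⟧)) :=
    fun h s => ((h.shift s).of_iso ((X.Le.L.commShiftIso s).app _).symm).retract _ _
      (map_ret _ (har' s))
  have hth : ∀ s : ℤ, (a⟦s⟧' ≫ (X.D.lam Al.θ)⟦s⟧' ≫ r⟦s⟧') ≫ a⟦s⟧' =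
      a⟦s⟧' ≫ (X.D.lam Al.θ)⟦s⟧' := fun s => by
    rw [Category.assoc, Category.assoc, hra', ← hθ, ← hra', Category.assoc, reassoc_of% har']
  have hae : ∀ (s : ℤ) (y : X.D.P'⟦s⟧ ⟶ A'⟦s⟧), (y ≫ a⟦s⟧') ≫ X.e⟦s⟧' = y ≫ a⟦s⟧' := fun s y => by
    rw [Category.assoc, ← hra', reassoc_of% har']
  have hnz : ∀ s : ℤ, op ((X.D.shift s).eps ((X.y₀⟦s⟧' ≫ r⟦s⟧') ≫ a⟦s⟧')) • Al.O.inv Al.θ ≠ 0 :=
    fun s => by
      have h₁ : (X.y₀⟦s⟧' ≫ r⟦s⟧') ≫ a⟦s⟧' = (X.y₀ ≫ X.e)⟦s⟧' := by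
        rw [Category.assoc, hra', ← Functor.map_comp]
      have h₂ : (X.D.shift s).eps ((X.y₀⟦s⟧' ≫ r⟦s⟧') ≫ a⟦s⟧') = 1 :=
        (congrArg (X.D.shift s).eps h₁).trans ((X.D.shift_eps s _).trans X.eps_e)
      rw [h₂, op_one, one_smul]
      exact Al.inv_ne
  have hMJ : ∀ (i : ZMod Q) (I : Type), HZ (X.M⟦dg (i + 1) - 1⟧) (∐ fun _ : I => X.J⟦dg i⟧) :=
    fun i I => (hδ (dg (i + 1))).hz
      ((hJ (dg i)).van_sum I _ (mt (hr i _).2 (not_res hq (.inl (by ring)))))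
      ((hJ (dg i)).van_sum I _ (mt (hr i _).2 (not_res hq (.inr (by ring)))))
  exact ⟨{
    Kh := X.Kh
    Ke := X.Ke
    Lh := X.Lh
    Le := X.Le
    bdd := X.bdd
    ι := ZMod Q
    succ := Equiv.addRight 1
    P := fun i => A'⟦dg i⟧
    th := fun i => a⟦dg i⟧' ≫ (X.D.lam Al.θ)⟦dg i⟧' ≫ r⟦dg i⟧'
    Y := fun i => Y (dg i)
    inn := fun i => inn (dg i)
    out := fun i => out (dg i)
    dist := fun i => dist (dg i)
    J := fun i => X.J⟦dg i⟧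
    g := fun i => (B (dg i)).g (hP _) (r₀ _) (hz _) (r⟦dg i⟧')
    g' := fun i => (B' (dg (i + 1))).g (hP' i) (r₀' i) (hz _) (r⟦dg (i + 1)⟧'⟦(1 : ℤ)⟧')
    g_th := fun i f => (B _).g_th _ _ _ (har' _) (hra' _) (hθ _) f
    g'_th := fun i f => by
      rw [(shiftFunctor T (1 : ℤ)).map_comp, (shiftFunctor T (1 : ℤ)).map_comp]
      exact (B' _).g_th _ _ _ (har'' _) (hra'' _) (hθ' _) f
    Z := fun d i => ¬ Res Q (dg i) d
    Z_J := fun d i h I => (hJ _).van_sum I d h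
    Z_P := fun d i h => ⟨hz_retract (har' _) ((B _).van d h),
      hz_retract (map_ret _ (har' _)) ((B _).vanL d h)⟩
    Z_P' := fun d i h => ⟨hz_retract (har'' _) ((B' _).van d (mt (hr i d).1 h)),
      hz_retract (map_ret _ (har'' _)) ((B' _).vanL d (mt (hr i d).1 h))⟩
    crd := fun d hd i h => by
      obtain ⟨w, hw⟩ := (hJ (dg i)).gen d
      have h₁ := dg_le i
      have h₂ := dg_le (i + 1)
      exact ⟨w, hw.gen, (B _).crd _ _ _ (har' _) (hra' _) Al (not_not.1 h) (by omega) hw,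
        (B' _).crd _ _ _ (har'' _) (hra'' _) Al ((hr i d).2 (not_not.1 h)) (by omega) hw⟩
    Z_up := fun d i => (two d i).imp_right .inr
    Z_down := fun d i => by
      have := two d (i + -1 + -1)
      rw [show i + -1 + -1 + 1 + 1 = i by ring] at this
      exact this.symm.imp_right .inr
    pP := fun i => by
      rw [← har', ← Category.id_comp (r⟦_⟧'), ← Preadditive.comp_zsmul, ← Preadditive.zsmul_comp,
        ← (shiftFunctor T _).map_id, ← Functor.map_zsmul, X.pA, Functor.map_zero, zero_comp,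
        comp_zero]
    pJ := fun i => (hJ _).pJ
    P_V := fun i => acy' (((acy X.A_V).shift _).retract _ _ (har' _))
    LeP_V := fun i => acy' (hL (acy X.LA_V) _)
    J_V := fun i => acy' (hJ _).zero
    P_loc := fun i => (X.A_loc.shift _).retract _ _ (har' _)
    LeP_acyc := fun i => hL X.LA_acyc _
    J_acyc := fun i => X.J_acyc.shift _
    J_loc := fun i => (hJ _).loc
    TD := fun i => X.D.shift (dg i)
    M := fun i => X.M⟦dg i - 1⟧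
    cell := fun i => X.cell _
    lat := fun i => X.lat _
    toP := fun i => a⟦dg i⟧'
    th_toP := fun i => hth _
    κ := fun i => (B (dg i)).kap (r₀ _) (r₁ _) (hδ _)
    κ_lam := fun i => (B _).kap_lam _ _ _
    κ_lat := fun i => (B _).kap_lat _ _ _ le_rfl
    M_van := fun i => ⟨(hδ _).hz ((B' _).van _ (not_res hq (by omega)))
        ((B' _).van _ (not_res hq (by omega))),
      (hδ _).hz ((B' _).vanL _ (not_res hq (by omega))) ((B' _).vanL _ (not_res hq (by omega)))⟩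
    κ' := fun i => (B' (dg (i + 1))).kap (r₀' i) (r₁' i) (hδ _)
    κ'_lam := fun i => (B' _).kap_lam _ _ _
    z := fun i => δ _ ≫ z (dg i)
    z_gen := fun i I x => by
      obtain ⟨x, rfl⟩ := (hδ _).surj ((hJ _).van_sum I _ (r₁ _)) x
      obtain ⟨n, rfl⟩ := (hz _).gen I x
      exact ⟨n, comp_cmb _ _ _⟩
    κ_g := fun i f hf => by
      rw [Category.assoc]
      exact ((B _).kap_δ _ _ _ _).trans ((B _).k_g _ _ _ (hra' _) hf)
    κ'_g := fun i f hf => by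
      rw [Category.assoc]
      exact ((B' _).kap_δ _ _ _ _).trans ((B' _).k_g _ _ _ (hra'' _) hf)
    M_J := hMJ
    P'_van := fun i => hz_retract (har'' (dg i)) (X.D.shift (dg i)).van
    rig := fun i y hy => X.rig' h1 hF (dg i) (r₁ _) (hδ _) _ (hae (dg i) y) hy
    nonzero := ⟨0, _, hnz _⟩ }⟩

/-- The middle data from the output of TOP-A. -/
theorem md_of_ta [Finite F] [CharP F p] (h5 : 5 ≤ p) (hF : p < Nat.card F)
    (X : P221X.TA Al (2 * p - 2) b V) : Nonempty (MD Al b V) := by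
  have e : (2 * p - 2 : ℤ) = ((2 * p - 2 : ℕ) : ℤ) := by omega
  rw [e] at X
  exact md_of_ta' (by omega) hF (by omega) X

end Vale.Agent.P221X.TA
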