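import Vale.Agent.P221X.Base.Top

/-!
# P221X, the interface between TOP-A and TOP-B

`TA Al q b V` : everything that the construction of `X` uses about `A = E / T` (`A = D.P`) and `J`.
-/

noncomputable section

open CategoryTheory MonoidalCategory Limits Pretriangulated MulOpposite

namespace Vale.Agent.P221X

open Vale.Agent.P251 Vale.Agent.P251.T Vale.Agent.P251.S

variable {p : ℕ} {F : Type} [Field F] {D : GD p F} {R : Type} [Ring R] [Algebra F R]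

universe u

variable {T : Type u} [Category.{0} T] [Preadditive T] [HasZeroObject T] [HasShift T ℤ]
  [∀ n : ℤ, (shiftFunctor T n).Additive] [Pretriangulated T] [IsTriangulated T]
  [MonoidalCategory T] [SymmetricCategory T] [TensorTriangulated T] [MonoidalClosed T]
  [HasCoproducts.{0} T] [HasProducts.{0} T] [StableCat T]

/-- The output of TOP-A. The object `A = E / T` is `D.P`. -/
structure TA {S : RD D R} (Al : AlgA S) (q : ℤ) (b V : T) where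
  M : T
  iM : 𝟙_ T ⟶ M
  δM : M ⟶ (𝟙_ T)⟦(1 : ℤ)⟧
  distM : Triangle.mk ((p : ℤ) • 𝟙 (𝟙_ T)) iM δM ∈ distTriang T
  Kh : T
  Ke : T
  Lh : LocFunctor Kh
  Le : LocFunctor Ke
  bdd : ∀ (W : T) (N : ℤ), (∀ n ≥ N, ∀ x : Sph T n ⟶ W, x = 0) → Acyclic Kh W ∧ Acyclic Ke W
  lat : ∀ n k : ℤ, NM.FinKer (NM.frac Lh.unit Le.unit (M⟦n⟧) (b⟦k⟧)) ∧
    NM.FinCoker (NM.frac Lh.unit Le.unit (M⟦n⟧) (b⟦k⟧))
  D : NM.TriData T R
  cell : ∀ i k : ℤ, NM.GoodCell Al.O (D.shift i) (Lh.L.obj (b⟦k⟧))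
  pA : ((p : ℤ) ^ 2) • 𝟙 D.P = 0
  A_loc : IsLocal Kh D.P
  LA_acyc : Acyclic Kh (Le.L.obj D.P)
  A_V : IsZero (D.P ⊗ V)
  LA_V : IsZero (Le.L.obj D.P ⊗ V)
  per : D.P⟦q⟧ ≅ D.P
  /-- the idempotent `e` acting on `A` -/
  e : D.P ⟶ D.P
  e_idem : e ≫ e = e
  e_θ : e ≫ D.lam Al.θ = D.lam Al.θ ≫ e
  πA_van : ∀ n : ℤ, ¬ q ∣ n → ¬ q ∣ n - 1 → ∀ x : Sph T n ⟶ D.P, x = 0
  πV_van : ∀ n : ℤ, ¬ q ∣ n → ¬ q ∣ n - 1 → ∀ x : Sph T n ⟶ Le.L.obj D.P, x = 0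
  k : ∀ n : ℤ, q ∣ n ∨ q ∣ n - 1 → ((Sph T n ⟶ Le.L.obj D.P) ≃+ KK F)
  k_lam : ∀ n h x r, k n h (x ≫ Le.L.map (D.lam r)) = S.op r (k n h x)
  k_e : ∀ n h x, k n h (x ≫ Le.L.map e) = KK.prj (p + 1) (k n h x)
  πA_inj : ∀ (n : ℤ) (x : Sph T n ⟶ D.P), x ≫ Le.unit.app D.P = 0 → x = 0
  πA_range : ∀ n h, 0 ≤ n → ∃ N : ℕ, ∀ z : KK F, z ∈ KK.ge (-N : ℤ) ↔
    ∃ x : Sph T n ⟶ D.P, k n h (x ≫ Le.unit.app D.P) = z
  /-- the generator `A⟦-2⟧ ⟶ E⟦-1⟧ ⟶ E ⟶ A` of `[P', P]` -/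
  y₀ : D.P' ⟶ D.P
  y₀_surj : Function.Surjective fun x : M⟦(-1 : ℤ)⟧ ⟶ Le.L.obj D.P' => x ≫ Le.L.map y₀
  eps_e : D.eps (y₀ ≫ e) = 1
  τ : KK F →+ KK F
  τ_smul : ∀ (c : F) (z : KK F), τ (c • z) = c ^ p • τ z
  /-- `y = y₀ ≫ m`, `g = e m` -/
  sem : ∀ y : D.P' ⟶ D.P, ∃ (g : D.P ⟶ D.P) (r' : R), y ≫ e = y₀ ≫ g ∧
    ∀ h x, k 0 h (x ≫ Le.L.map g) =
      KK.prj (p + 1) (S.op (D.eps (y ≫ e)) (k 0 h x) + S.op r' (τ (k 0 h x)))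
  J : T
  pJ : (p : ℤ) • 𝟙 J = 0
  J_loc : ∀ I : Type, IsLocal Ke (∐ fun _ : I => J)
  J_acyc : Acyclic Kh J
  J_V : IsZero (J ⊗ V)
  πJ_van : ∀ n : ℤ, ¬ q ∣ n → ¬ q ∣ n - 1 → ∀ x : Sph T n ⟶ J, x = 0
  πJ_gen : ∀ n : ℤ, q ∣ n ∨ q ∣ n - 1 → ∃ z : Sph T n ⟶ J, (∀ x : Sph T n ⟶ J, ∃ k : ℤ, x = k • z) ∧
    Function.Bijective fun g : J ⟶ Le.L.obj D.P => z ≫ g

/-- Row TOPA. -/
def RowTA (T : Type u) [Category.{0} T] [Preadditive T] [HasZeroObject T] [HasShift T ℤ]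
    [∀ n : ℤ, (shiftFunctor T n).Additive] [Pretriangulated T] [IsTriangulated T]
    [MonoidalCategory T] [SymmetricCategory T] [TensorTriangulated T] [MonoidalClosed T]
    [HasCoproducts.{0} T] [HasProducts.{0} T] [StableCat T] : Prop :=
  ∀ (p : ℕ) [Fact p.Prime] (F : Type) [Field F] [CharP F p] [Finite F] (D : GD p F)
    (R : Type) [Ring R] [Algebra F R] (S : RD D R) (Rf AA : Type) [Ring Rf] [Ring AA]
    (A₀ : RA S Rf AA) (b V : T) (Al : AlgA S), 5 ≤ p → ED A₀ (2 * p - 2) b V →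
      Nonempty (TA Al (2 * p - 2) b V)

/-- Row TOPB proper. -/
def RowTB (T : Type u) [Category.{0} T] [Preadditive T] [HasZeroObject T] [HasShift T ℤ]
    [∀ n : ℤ, (shiftFunctor T n).Additive] [Pretriangulated T] [IsTriangulated T]
    [MonoidalCategory T] [SymmetricCategory T] [TensorTriangulated T] [MonoidalClosed T]
    [HasCoproducts.{0} T] [HasProducts.{0} T] [StableCat T] : Prop :=
  ∀ (p : ℕ) [Fact p.Prime] (F : Type) [Field F] [CharP F p] [Finite F] (D : GD p F)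
    (R : Type) [Ring R] [Algebra F R] (S : RD D R) (b V : T) (Al : AlgA S), 5 ≤ p →
      p < Nat.card F → HasCov T → IsFin V → TA Al (2 * p - 2) b V → ∃ X : T, Out p b V X

theorem rowTOPB_of (hA : RowTA T) (hB : RowTB T) : RowTOPB T := by
  intro p _ F _ _ _ D R _ _ S Rf AA _ _ A₀ b V h5 hF hc hV Al X
  obtain ⟨Y⟩ := hA p F D R S Rf AA A₀ b V Al h5 X
  exact hB p F D R S b V Al h5 hF hc hV Y

end Vale.Agent.P221X
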