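import Vale.Agent.P221X.TB.Defs

/-!
# P221X, TOP-B: algebraic lemmas
-/

noncomputable section

open MulOpposite

namespace Vale.Agent.P221X.TB

theorem exists_basis' (p : ℕ) (k : Type) [Field k] (hk : ∀ a : k, ∃ n : ℤ, (n : k) = a)
    (hl : ∀ (G : Type) [AddCommGroup G] (g : G), (p : ℤ) • g = 0 → ∃ f : k →+ G, f 1 = g)
    (U : Type) [AddCommGroup U] [Module k U] : ∃ (I : Type) (B : I → U),
      (∀ (G : Type) [AddCommGroup G] (f g : U →+ G), (∀ i, f (B i) = g (B i)) → f = g) ∧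
      ∀ (G : Type) [AddCommGroup G] (g : I → G), (∀ i, (p : ℤ) • g i = 0) →
        ∃ s : U →+ G, ∀ i, s (B i) = g i := by
  let b := Module.Basis.ofVectorSpace k U
  refine ⟨_, b, fun G _ f g h => ?_, fun G _ g hg => ?_⟩
  · ext u
    have hu : u ∈ Submodule.span k (Set.range b) := by rw [b.span_eq]; trivial
    induction hu using Submodule.span_induction with
    | mem x hx => obtain ⟨i, rfl⟩ := hx; exact h i
    | zero => simp
    | add x y _ _ hx hy => rw [map_add, map_add, hx, hy]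
    | smul a x _ hx =>
      obtain ⟨n, rfl⟩ := hk a
      rw [Int.cast_smul_eq_zsmul, map_zsmul, map_zsmul, hx]
  · choose f hf using fun i => hl G (g i) (hg i)
    refine ⟨(Finsupp.liftAddHom f).comp b.repr.toLinearMap.toAddMonoidHom, fun i => ?_⟩
    simp [hf]

/-- an abelian group killed by a prime has a basis -/
theorem exists_basis (p : ℕ) [Fact p.Prime] (U : Type) [AddCommGroup U]
    (hp : ∀ u : U, p • u = 0) : ∃ (I : Type) (B : I → U),
      (∀ (G : Type) [AddCommGroup G] (f g : U →+ G), (∀ i, f (B i) = g (B i)) → f = g) ∧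
      ∀ (G : Type) [AddCommGroup G] (g : I → G), (∀ i, (p : ℤ) • g i = 0) →
        ∃ s : U →+ G, ∀ i, s (B i) = g i :=
  @exists_basis' p (ZMod p) _ ZMod.intCast_surjective (fun G _ g hg =>
    ⟨ZMod.lift p ⟨zmultiplesHom G g, hg⟩, by
      rw [← Int.cast_one (R := ZMod p), ZMod.lift_coe]; simp⟩) U _ (AddCommGroup.zmodModule hp)

theorem fin_of_fib {G H : Type*} [AddCommGroup G] [AddCommGroup H] (S : AddSubgroup G)
    (a : G →+ H) (h₁ : (a '' S).Finite) (h₂ : {x | x ∈ S ∧ a x = 0}.Finite) :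
    (S : Set G).Finite := by
  obtain ⟨G', hG', h'⟩ := NM.choose_fin (fun x : S => a x) h₁
  refine (((hG'.image Subtype.val).prod h₂).image fun z => z.1 + z.2).subset fun x hx => ?_
  obtain ⟨x', hx', he⟩ := h' ⟨x, hx⟩ ⟨x, hx, rfl⟩
  exact ⟨(x', x - x'), ⟨⟨x', hx', rfl⟩, sub_mem hx x'.2, by rw [map_sub]; exact sub_eq_zero.2 he⟩,
    by simp⟩

section Tri

variable {ι : Type} [Fintype ι] {G H : ι → Type} [∀ i, AddCommGroup (G i)]
  [∀ i, AddCommGroup (H i)] (Φ : ∀ i, G i →+ H i) (Ψ : (∀ i, G i) →+ ∀ i, H i) (r : ι → ℕ)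
  (tri : ∀ g j, (∀ i, r i < r j → g i = 0) → Ψ g j = Φ j (g j))

include tri

/-- a block triangular map with surjective diagonal blocks is surjective -/
theorem tri_surj (h : ∀ i, Function.Surjective (Φ i)) : Function.Surjective Ψ := by
  classical
  intro y
  have key : ∀ k : ℕ, ∃ g, ∀ j, r j < k → Ψ g j = y j := by
    intro k
    induction k with
    | zero => exact ⟨0, fun j hj => absurd hj (Nat.not_lt_zero _)⟩
    | succ k ih =>
      obtain ⟨g, hg⟩ := ih
      choose s hs using fun j => h j (y j - Ψ g j)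
      refine ⟨g + fun j => if r j = k then s j else 0, fun j hj => ?_⟩
      rw [map_add, Pi.add_apply, tri _ j fun i hi => if_neg (by omega)]
      by_cases e : r j = k
      · rw [if_pos e, hs]; abel
      · rw [if_neg e, map_zero, add_zero, hg j (by omega)]
  obtain ⟨g, hg⟩ := key (Finset.univ.sup r + 1)
  exact ⟨g, funext fun j => hg j (Nat.lt_succ_of_le (Finset.le_sup (Finset.mem_univ j)))⟩

/-- a block triangular map whose diagonal blocks have finite kernel has finite kernel -/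
theorem tri_finKer (h : ∀ i, NM.FinKer (Φ i)) : NM.FinKer Ψ := by
  classical
  let S : ℕ → AddSubgroup (∀ i, G i) := fun k =>
    { carrier := {g | Ψ g = 0 ∧ ∀ i, r i < k → g i = 0}
      add_mem' := fun {a b} ha hb => ⟨by rw [map_add, ha.1, hb.1, add_zero], fun i hi => by
        rw [Pi.add_apply, ha.2 i hi, hb.2 i hi, add_zero]⟩
      zero_mem' := ⟨map_zero _, fun _ _ => rfl⟩
      neg_mem' := fun {a} ha => ⟨by rw [map_neg, ha.1, neg_zero], fun i hi => by
        rw [Pi.neg_apply, ha.2 i hi, neg_zero]⟩ }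
  have key : ∀ m k : ℕ, Finset.univ.sup r + 1 ≤ k + m → (S k : Set (∀ i, G i)).Finite := by
    intro m
    induction m with
    | zero =>
      intro k hk
      refine (Set.finite_singleton 0).subset fun g hg => funext fun i => hg.2 i ?_
      have : r i ≤ Finset.univ.sup r := Finset.le_sup (Finset.mem_univ i)
      omega
    | succ m ih =>
      intro k hk
      let a : (∀ i, G i) →+ ∀ i, G i :=
        { toFun := fun g i => if r i = k then g i else 0
          map_zero' := funext fun i => by simp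
          map_add' := fun g g' => funext fun i => by
            simp only [Pi.add_apply]; split_ifs <;> simp }
      refine fin_of_fib (S k) a ?_ ((ih (k + 1) (by omega)).subset fun g hg => ⟨hg.1.1, ?_⟩)
      · refine (Set.Finite.pi' h).subset ?_
        rintro _ ⟨g, hg, rfl⟩ i
        change Φ i (if r i = k then g i else 0) = 0
        split_ifs with e
        · rw [← tri g i fun i' hi' => hg.2 i' (by omega), hg.1]; rfl
        · exact map_zero _
      · intro i hi
        by_cases e : r i = k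
        · have : (if r i = k then g i else 0) = 0 := congrFun hg.2 i
          rwa [if_pos e] at this
        · exact hg.1.2 i (by omega)
  exact (key _ 0 (by rw [zero_add])).subset fun g hg => ⟨hg, fun i hi => absurd hi (by omega)⟩

end Tri

variable {p : ℕ} {F : Type} [Field F] {D : GD p F} {R : Type} [Ring R] [Algebra F R]
  {S : RD D R} (Al : AlgA S)

/-- the operator `e θ + (1 - e)` on `K` -/
def th (z : KK F) : KK F := S.op Al.θ (KK.prj (p + 1) z) + (z - KK.prj (p + 1) z)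

theorem prj_prj (z : KK F) : KK.prj (p + 1) (KK.prj (p + 1) z) = KK.prj (p + 1) z :=
  KK.prj_of_mem (KK.prj_mem_inv _ _)

theorem prj_th (z : KK F) : KK.prj (p + 1) (th Al z) = S.op Al.θ (KK.prj (p + 1) z) := by
  rw [th, map_add, map_sub, prj_prj, sub_self, add_zero, ← Al.θ_prj, prj_prj]

theorem th_add {z w : KK F} (hz : z ∈ KK.inv (p + 1)) :
    th Al (z + (w - KK.prj (p + 1) w)) = S.op Al.θ z + (w - KK.prj (p + 1) w) := by
  rw [th, map_add, map_sub, prj_prj, sub_self, add_zero, KK.prj_of_mem hz]; abel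

theorem th_of_mem {z : KK F} (hz : z ∈ KK.inv (p + 1)) : th Al z = S.op Al.θ z := by
  rw [th, KK.prj_of_mem hz, sub_self, add_zero]

theorem th_eq_zero {z : KK F} (h : th Al z = 0) : z ∈ KK.inv (p + 1) ∧ S.op Al.θ z = 0 := by
  have h1 := prj_th Al z
  rw [h, map_zero] at h1
  rw [th, ← h1, zero_add, sub_eq_zero] at h
  exact ⟨h ▸ KK.prj_mem_inv _ _, h ▸ h1.symm⟩

/-- linear combinations of the `c i` -/
abbrev lc : (Al.Θ.ι →₀ F) →ₗ[F] KK F := Finsupp.linearCombination F Al.Θ.c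

/-- linear combinations of the `q i` -/
abbrev lq : (Al.Θ.ι →₀ F) →ₗ[F] KK F := Finsupp.linearCombination F Al.Θ.q

/-- linear combinations of the `pol j` -/
abbrev lp : (Al.Θ.κ →₀ F) →ₗ[F] KK F := Finsupp.linearCombination F Al.Θ.pol

theorem lin_mem {I : Type} {v : I → KK F} {W : Submodule F (KK F)} (h : ∀ i, v i ∈ W)
    (u : I →₀ F) : Finsupp.linearCombination F v u ∈ W := by
  rw [Finsupp.linearCombination_apply]
  exact Submodule.sum_mem _ fun i _ => W.smul_mem _ (h i)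

theorem th_lq (u : Al.Θ.ι →₀ F) : th Al (lq Al u) = 0 := by
  rw [th_of_mem Al (lin_mem Al.Θ.q_inv u)]
  exact lin_mem (W := LinearMap.ker (S.op Al.θ)) Al.Θ.q_ker u

theorem th_lp (u : Al.Θ.κ →₀ F) : th Al (lp Al u) = 0 := by
  rw [th_of_mem Al (lin_mem Al.Θ.pol_inv u)]
  exact lin_mem (W := LinearMap.ker (S.op Al.θ)) Al.Θ.pol_ker u

theorem rho_lc (u : Al.Θ.ι →₀ F) : Al.rho (lc Al u) = lq Al u := by
  rw [Finsupp.apply_linearCombination, show Al.rho ∘ Al.Θ.c = Al.Θ.q from funext Al.rho_c]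

theorem cok_surj (N : ℕ) (v : KK F) : ∃ g ∈ KK.ge (-N : ℤ), ∃ u v', v = g + lc Al u + th Al v' := by
  obtain ⟨u, z, hz, h⟩ := Al.Θ.cok_span _ (KK.prj_mem_inv (p + 1) v)
  refine ⟨_, KK.ge_mono (by omega) h, u, z + (v - KK.prj (p + 1) v), ?_⟩
  rw [th_add Al hz]; abel

theorem cok_finW (N : ℕ) : {u | ∃ g ∈ KK.ge (-N : ℤ), ∃ v', g + lc Al u = th Al v'}.Finite := by
  refine (Al.Θ.cok_fin N).subset ?_
  rintro u ⟨g, hg, v', h⟩
  refine ⟨KK.prj (p + 1) v', KK.prj_mem_inv _ _, ?_⟩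
  rw [← prj_th, ← h, map_add, KK.prj_of_mem (lin_mem Al.Θ.c_inv u), sub_add_cancel_right]
  exact neg_mem (KK.prj_mem_ge _ hg)

theorem cok_finG (N : ℕ) : ∃ s : Set (KK F), s.Finite ∧ ∀ g ∈ KK.ge (-N : ℤ), ∀ v', g = th Al v' →
    ∃ w ∈ s, ∃ g' ∈ KK.ge (-N : ℤ), g = w + th Al g' := by
  obtain ⟨s, hs⟩ := Al.Θ.cross_fin N
  refine ⟨s, s.finite_toSet, fun g hg v' h => ?_⟩
  have h1 : KK.prj (p + 1) g = S.op Al.θ (KK.prj (p + 1) v') := by rw [h, prj_th]
  obtain ⟨w, hw, z', hz', hz'', he⟩ := hs _ (KK.prj_mem_inv (p + 1) v')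
    (h1 ▸ KK.prj_mem_ge _ hg)
  refine ⟨w, hw, z' + (g - KK.prj (p + 1) g),
    add_mem hz'' (sub_mem hg (KK.prj_mem_ge _ hg)), ?_⟩
  rw [th_add Al hz', ← add_assoc, ← he, ← h1]; abel

theorem ker_surj (N : ℕ) (v : KK F) (hv : th Al v = 0) :
    ∃ g ∈ KK.ge (-N : ℤ), ∃ u, th Al g = 0 ∧ v = g + lp Al u := by
  obtain ⟨h1, h2⟩ := th_eq_zero Al hv
  obtain ⟨u, hu⟩ := Al.Θ.ker_span v h1 h2
  refine ⟨_, KK.ge_mono (by omega) hu, u, ?_, by abel⟩
  have h3 := th_lp Al u
  rw [th_of_mem Al (lin_mem Al.Θ.pol_inv u)] at h3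
  rw [th_of_mem Al (sub_mem h1 (lin_mem Al.Θ.pol_inv u)), map_sub, h2, h3, sub_zero]

theorem ker_finW (N : ℕ) : {u | ∃ g ∈ KK.ge (-N : ℤ), g + lp Al u = 0}.Finite := by
  refine (Al.Θ.pol_fin N).subset ?_
  rintro u ⟨g, hg, h⟩
  change lp Al u ∈ KK.ge (-N : ℤ)
  rw [eq_neg_of_add_eq_zero_right h]
  exact neg_mem hg

theorem zx_fin [Finite F] : {v : KK F | v ∈ Zx p ∧ v ∈ KK.inv (p + 1) ⊓ KK.ge 0}.Finite := by
  refine (Set.finite_range fun c : F => c • (KK.uz 0 : KK F)).subset fun v hv =>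
    ⟨KK.cf 0 v, KK.ext fun n => ?_⟩
  rw [map_smul, KK.cf_uz]
  rcases lt_trichotomy n 0 with h | h | h
  · rw [if_neg h.ne, smul_zero, hv.2.2 n h]
  · rw [if_pos h, h, smul_eq_mul, mul_one]
  · rw [if_neg h.ne', smul_zero, hv.1.2 n h]

theorem exists_ne_pow [Finite F] (h1 : 1 < p) (h : p < Nat.card F) : ∃ c : F, c ^ p ≠ c := by
  classical
  by_contra hc
  push Not at hc
  have := Fintype.ofFinite F
  have hne : (Polynomial.X ^ p - Polynomial.X : Polynomial F) ≠ 0 :=
    FiniteField.X_pow_card_sub_X_ne_zero F h1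
  have h2 : (Finset.univ : Finset F).val ⊆ (Polynomial.X ^ p - Polynomial.X : Polynomial F).roots :=
    fun c _ => (Polynomial.mem_roots hne).2 (by simp [hc c])
  have h3 := Polynomial.card_le_degree_of_subset_roots h2
  rw [FiniteField.X_pow_card_sub_X_natDegree_eq F h1, Finset.card_univ] at h3
  rw [Nat.card_eq_fintype_card] at h
  omega

/-- rigidity in the presence of a semilinear term -/
theorem rig_sem [Finite F] (h1 : 1 < p) (h : p < Nat.card F) (τ : KK F →+ KK F)
    (hτ : ∀ (c : F) (z : KK F), τ (c • z) = c ^ p • τ z) (r r' : R)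
    (hr : op r • Al.O.inv Al.θ ≠ 0) :
    (Set.range fun f => Al.rho (KK.prj (p + 1) (S.op r f + S.op r' (τ f)))).Infinite := by
  intro hfin
  obtain ⟨c, hc⟩ := exists_ne_pow h1 h
  refine Al.rigA r hr ⟨Submodule.span F _, FiniteDimensional.span_of_finite F hfin, fun z => ?_⟩
  have e : Al.rho (S.op r z) = (c - c ^ p)⁻¹ •
      (Al.rho (KK.prj (p + 1) (S.op r (c • z) + S.op r' (τ (c • z)))) -
        c ^ p • Al.rho (KK.prj (p + 1) (S.op r z + S.op r' (τ z)))) := by
    rw [Al.rho_prj, Al.rho_prj, hτ]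
    simp only [map_add, map_smul, smul_add]
    rw [add_sub_add_right_eq_sub, ← sub_smul, smul_smul, inv_mul_cancel₀ (sub_ne_zero.2 hc.symm),
      one_smul]
  rw [e]
  exact Submodule.smul_mem _ _ (sub_mem (Submodule.subset_span ⟨_, rfl⟩)
    (Submodule.smul_mem _ _ (Submodule.subset_span ⟨_, rfl⟩)))

end Vale.Agent.P221X.TB
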