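import Vale.Agent.P221X.TB.Alg

/-!
# P221X, TOP-B: shifts of `A` and `J`, maps out of sums of copies of `J`
-/

set_option linter.unusedSectionVars false

noncomputable section

open CategoryTheory MonoidalCategory Limits Pretriangulated

namespace Vale.Agent.P221X.TB

open Vale.Agent.P251 Vale.Agent.P251.T Vale.Agent.P251.S

universe u

variable {T : Type u} [Category.{0} T] [Preadditive T] [HasZeroObject T] [HasShift T ℤ]
  [∀ n : ℤ, (shiftFunctor T n).Additive] [Pretriangulated T] [IsTriangulated T]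
  [MonoidalCategory T] [SymmetricCategory T] [TensorTriangulated T] [MonoidalClosed T]
  [HasCoproducts.{0} T] [HasProducts.{0} T] [StableCat T]

/-- `n ≡ s` or `n ≡ s + 1` modulo `q` -/
def Res (q s n : ℤ) : Prop := q ∣ n - s ∨ q ∣ n - s - 1

theorem Res.sub {q s s' n d : ℤ} (h : s + d = s') : Res q s (n - d) ↔ Res q s' n := by
  rw [Res, Res, ← h, show n - d - s = n - (s + d) by ring]

theorem Res.self (q s : ℤ) : Res q s s := .inl (by simp)

theorem Res.congr {q s s' : ℤ} (h : q ∣ s - s') (n : ℤ) : Res q s n ↔ Res q s' n := by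
  rw [Res, Res, show n - s' = n - s + (s - s') by ring,
    show n - s + (s - s') - 1 = n - s - 1 + (s - s') by ring, dvd_add_left h, dvd_add_left h]

theorem res_zero (q n : ℤ) : Res q 0 n ↔ q ∣ n ∨ q ∣ n - 1 := by rw [Res, sub_zero]

/-- `S^(n+k) ≅ S^n⟦k⟧` -/
def sphI {n k m : ℤ} (h : n + k = m) : Sph T m ≅ (Sph T n)⟦k⟧ :=
  (shiftFunctorAdd' T n k m h).app (𝟙_ T)

section sh

variable {k : ℤ} {X X' : T} (a : X' ≅ X⟦k⟧)

/-- `[X, Z] ≃ [X⟦k⟧, Z⟦k⟧]` -/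
def sh (Z : T) : (X ⟶ Z) ≃+ (X' ⟶ Z⟦k⟧) :=
  AddEquiv.ofBijective
    ({ toFun := fun x => a.hom ≫ x⟦k⟧'
       map_zero' := by simp
       map_add' := fun x y => by simp } : (X ⟶ Z) →+ (X' ⟶ Z⟦k⟧))
    ⟨fun x y h => (shiftFunctor T k).map_injective ((cancel_epi a.hom).1 h), fun y => by
      obtain ⟨x, hx⟩ := (shiftFunctor T k).map_surjective (a.inv ≫ y)
      exact ⟨x, by change a.hom ≫ x⟦k⟧' = y; rw [hx, Iso.hom_inv_id_assoc]⟩⟩

theorem sh_apply {Z : T} (x : X ⟶ Z) : sh a Z x = a.hom ≫ x⟦k⟧' := rfl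

theorem sh_comp {Z Z' : T} (x : X ⟶ Z) (f : Z ⟶ Z') : sh a Z' (x ≫ f) = sh a Z x ≫ f⟦k⟧' := by
  simp [sh_apply]

variable {Ke : T} (Le : LocFunctor Ke)

/-- `[X, L Z] ≃ [X⟦k⟧, L (Z⟦k⟧)]` -/
def shL (Z : T) : (X ⟶ Le.L.obj Z) ≃+ (X' ⟶ Le.L.obj (Z⟦k⟧)) :=
  (sh a (Le.L.obj Z)).trans
    { toFun := fun x => x ≫ (Le.L.commShiftIso k).inv.app Z
      invFun := fun x => x ≫ (Le.L.commShiftIso k).hom.app Z
      left_inv := fun x => by simp
      right_inv := fun x => by simp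
      map_add' := fun x y => by simp }

theorem shL_apply {Z : T} (x : X ⟶ Le.L.obj Z) :
    shL a Le Z x = a.hom ≫ x⟦k⟧' ≫ (Le.L.commShiftIso k).inv.app Z := Category.assoc _ _ _

theorem shL_map {Z Z' : T} (x : X ⟶ Le.L.obj Z) (f : Z ⟶ Z') :
    shL a Le Z' (x ≫ Le.L.map f) = shL a Le Z x ≫ Le.L.map (f⟦k⟧') := by
  simp [shL_apply]

theorem shL_u {Z : T} (x : X ⟶ Z) : shL a Le Z (x ≫ Le.u Z) = sh a Z x ≫ Le.u (Z⟦k⟧) := by
  simp [shL_apply, sh_apply, Le.u_shift]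

theorem shL_pre {J Z : T} (z : X ⟶ J) (g : J ⟶ Le.L.obj Z) :
    shL a Le Z (z ≫ g) = sh a J z ≫ shL (Iso.refl (J⟦k⟧)) Le Z g := by
  simp [shL_apply, sh_apply]

end sh

variable {p : ℕ} {F : Type} [Field F] {D : GD p F} {R : Type} [Ring R] [Algebra F R]
  (S : RD D R) (q : ℤ) {Ke : T} (Le : LocFunctor Ke)

/-- An object which looks like `A⟦s⟧`. -/
structure Blk (Z : T) (lam : R → (Z ⟶ Z)) (e : Z ⟶ Z) (s : ℤ) where
  van : ∀ n, ¬ Res q s n → ∀ x : Sph T n ⟶ Z, x = 0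
  vanL : ∀ n, ¬ Res q s n → ∀ x : Sph T n ⟶ Le.L.obj Z, x = 0
  k : ∀ n, Res q s n → ((Sph T n ⟶ Le.L.obj Z) ≃+ KK F)
  k_lam : ∀ n h x r, k n h (x ≫ Le.L.map (lam r)) = S.op r (k n h x)
  k_e : ∀ n h x, k n h (x ≫ Le.L.map e) = KK.prj (p + 1) (k n h x)
  inj : ∀ (n : ℤ) (x : Sph T n ⟶ Z), x ≫ Le.u Z = 0 → x = 0
  range : ∀ n h, s ≤ n → ∃ N : ℕ, ∀ z : KK F, z ∈ KK.ge (-N : ℤ) ↔
    ∃ x : Sph T n ⟶ Z, k n h (x ≫ Le.u Z) = z

variable {S q Le} (Al : AlgA S) {Z : T} {lam : R → (Z ⟶ Z)} {e : Z ⟶ Z} {s : ℤ}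

/-- the shift of a block -/
def Blk.shift (B : Blk S q Le Z lam e s) (d : ℤ) {s' : ℤ} (h : s + d = s') :
    Blk S q Le (Z⟦d⟧) (fun r => (lam r)⟦d⟧') (e⟦d⟧') s' where
  van n hn x := by
    obtain ⟨x, rfl⟩ := (sh (sphI (sub_add_cancel n d)) Z).surjective x
    rw [B.van _ (mt (Res.sub h).1 hn) x, map_zero]
  vanL n hn x := by
    obtain ⟨x, rfl⟩ := (shL (sphI (sub_add_cancel n d)) Le Z).surjective x
    rw [B.vanL _ (mt (Res.sub h).1 hn) x, map_zero]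
  k n hn := (shL (sphI (sub_add_cancel n d)) Le Z).symm.trans (B.k (n - d) ((Res.sub h).2 hn))
  k_lam n hn x r := by
    obtain ⟨x, rfl⟩ := (shL (sphI (sub_add_cancel n d)) Le Z).surjective x
    simp only [← shL_map, AddEquiv.trans_apply, AddEquiv.symm_apply_apply, B.k_lam]
  k_e n hn x := by
    obtain ⟨x, rfl⟩ := (shL (sphI (sub_add_cancel n d)) Le Z).surjective x
    simp only [← shL_map, AddEquiv.trans_apply, AddEquiv.symm_apply_apply, B.k_e]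
  inj n x hx := by
    obtain ⟨x, rfl⟩ := (sh (sphI (sub_add_cancel n d)) Z).surjective x
    rw [← shL_u, AddEquiv.map_eq_zero_iff] at hx
    rw [B.inj _ x hx, map_zero]
  range n hn hs := by
    obtain ⟨N, hN⟩ := B.range (n - d) ((Res.sub h).2 hn) (by omega)
    refine ⟨N, fun z => (hN z).trans ⟨?_, ?_⟩⟩
    · rintro ⟨x, rfl⟩
      exact ⟨sh (sphI (sub_add_cancel n d)) Z x, by
        simp only [← shL_u, AddEquiv.trans_apply, AddEquiv.symm_apply_apply]⟩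
    · rintro ⟨x, rfl⟩
      obtain ⟨x, rfl⟩ := (sh (sphI (sub_add_cancel n d)) Z).surjective x
      exact ⟨x, by simp only [← shL_u, AddEquiv.trans_apply, AddEquiv.symm_apply_apply]⟩

theorem Blk.shift_k (B : Blk S q Le Z lam e s) (d : ℤ) {s' : ℤ} (h : s + d = s') (n : ℤ)
    (hn : Res q s' n) (x : Sph T (n - d) ⟶ Le.L.obj Z) :
    (B.shift d h).k n hn (shL (sphI (sub_add_cancel n d)) Le Z x) =
      B.k (n - d) ((Res.sub h).2 hn) x := by
  simp only [Blk.shift, AddEquiv.trans_apply, AddEquiv.symm_apply_apply]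

/-- the endomorphism `e θ + (1 - e)` -/
def tw (t e : Z ⟶ Z) : Z ⟶ Z := e ≫ t + (𝟙 Z - e)

theorem tw_shift (t e : Z ⟶ Z) (d : ℤ) : (tw t e)⟦d⟧' = tw (t⟦d⟧') (e⟦d⟧') := by simp [tw]

theorem Blk.k_tw (B : Blk S q Le Z lam e s) (n : ℤ) (h : Res q s n) (x : Sph T n ⟶ Le.L.obj Z) :
    B.k n h (x ≫ Le.L.map (tw (lam Al.θ) e)) = th Al (B.k n h x) := by
  rw [tw, Functor.map_add, Functor.map_sub, Functor.map_comp, Le.L.map_id,
    Preadditive.comp_add, Preadditive.comp_sub, Category.comp_id, ← Category.assoc, map_add,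
    map_sub, B.k_lam, B.k_e, th]

/-- `z` generates -/
def Gen {X J : T} (z : X ⟶ J) : Prop := ∀ x : X ⟶ J, ∃ k : ℤ, x = k • z

/-- An object which looks like `J⟦s⟧`. -/
structure JL (p : ℕ) (q : ℤ) (Ke V J : T) (s : ℤ) : Prop where
  pJ : (p : ℤ) • 𝟙 J = 0
  loc : ∀ I : Type, IsLocal Ke (∐ fun _ : I => J)
  zero : Acyclic V J
  van : ∀ n, ¬ Res q s n → ∀ x : Sph T n ⟶ J, x = 0
  gen : ∀ n, ∃ z : Sph T n ⟶ J, Gen z

theorem JL.shift {V J : T} (h : JL p q Ke V J s) (d : ℤ) {s' : ℤ} (hs : s + d = s') :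
    JL p q Ke V (J⟦d⟧) s' where
  pJ := by rw [← (shiftFunctor T d).map_id, ← Functor.map_zsmul, h.pJ, Functor.map_zero]
  loc I := ((h.loc I).shift d).of_iso (PreservesCoproduct.iso (shiftFunctor T d) fun _ : I => J)
  zero := h.zero.shift d
  van n hn x := by
    obtain ⟨x, rfl⟩ := (sh (sphI (sub_add_cancel n d)) J).surjective x
    rw [h.van _ (mt (Res.sub hs).1 hn) x, map_zero]
  gen n := by
    obtain ⟨z, hz⟩ := h.gen (n - d)
    refine ⟨sh (sphI (sub_add_cancel n d)) J z, fun x => ?_⟩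
    obtain ⟨x, rfl⟩ := (sh (sphI (sub_add_cancel n d)) J).surjective x
    obtain ⟨k, rfl⟩ := hz x
    exact ⟨k, map_zsmul _ _ _⟩

variable (q Le) in
/-- maps `J ⟶ L Z` are determined by their effect on one homotopy group -/
def Pair (J Z : T) (s : ℤ) : Prop :=
  ∀ n, Res q s n → ∀ z : Sph T n ⟶ J, Gen z → Function.Bijective fun g : J ⟶ Le.L.obj Z => z ≫ g

theorem Gen.bij {X J Y : T} {z z' : X ⟶ J} (hz' : Gen z')
    (h : Function.Bijective fun g : J ⟶ Y => z ≫ g) :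
    Function.Bijective fun g : J ⟶ Y => z' ≫ g := by
  obtain ⟨k, hk⟩ := hz' z
  refine ⟨fun g g' hg => h.1 ?_, fun y => ?_⟩
  · change z ≫ g = z ≫ g'
    rw [hk, Preadditive.zsmul_comp, Preadditive.zsmul_comp, show z' ≫ g = z' ≫ g' from hg]
  · obtain ⟨g, rfl⟩ := h.2 y
    exact ⟨k • g, by change z' ≫ (k • g) = z ≫ g; rw [hk]; simp⟩

theorem Pair.shift {J : T} (h : Pair q Le J Z s) (d : ℤ) {s' : ℤ} (hs : s + d = s') :
    Pair q Le (J⟦d⟧) (Z⟦d⟧) s' := by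
  intro n hn z hz
  obtain ⟨z, rfl⟩ := (sh (sphI (sub_add_cancel n d)) J).surjective z
  have h1 := h (n - d) ((Res.sub hs).2 hn) z fun x => by
    obtain ⟨k, hk⟩ := hz (sh (sphI (sub_add_cancel n d)) J x)
    exact ⟨k, (sh (sphI (sub_add_cancel n d)) J).injective (by rw [hk, map_zsmul])⟩
  refine (Function.Bijective.of_comp_iff _ (shL (Iso.refl (J⟦d⟧)) Le Z).bijective).1 ?_
  have h2 := (shL (sphI (sub_add_cancel n d)) Le Z).bijective.comp h1
  convert h2 using 1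
  exact funext fun g => (shL_pre _ Le z g).symm

theorem Pair.iso {J Z' : T} (h : Pair q Le J Z s) (a : Z ≅ Z') {s' : ℤ} (hs : q ∣ s - s') :
    Pair q Le J Z' s' := by
  intro n hn z hz
  have h1 := h n ((Res.congr hs n).2 hn) z hz
  refine ⟨fun g g' hg => ?_, fun y => ?_⟩
  · rw [← cancel_mono (Le.L.mapIso a).inv]
    refine h1.1 ?_
    change z ≫ _ = z ≫ _
    rw [← Category.assoc, ← Category.assoc, show z ≫ g = z ≫ g' from hg]
  · obtain ⟨g, hg⟩ := h1.2 (y ≫ (Le.L.mapIso a).inv)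
    refine ⟨g ≫ (Le.L.mapIso a).hom, ?_⟩
    change z ≫ _ = y
    rw [← Category.assoc, show z ≫ g = _ from hg, Category.assoc, Iso.inv_hom_id, Category.comp_id]

theorem cpt (n : ℤ) : IsCpt (Sph T n) := fun _ X f => by
  obtain ⟨s, g, rfl⟩ := StableCat.compact n X f
  exact ⟨s, exists_sum_of_factor s g⟩

theorem JL.van_sum {V J : T} (h : JL p q Ke V J s) (I : Type) (n : ℤ) (hn : ¬ Res q s n)
    (x : Sph T n ⟶ ∐ fun _ : I => J) : x = 0 := by
  obtain ⟨t, g, rfl⟩ := cpt n _ x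
  exact Finset.sum_eq_zero fun i _ => by rw [h.van n hn (g i), zero_comp]

theorem JL.p_sum {V J : T} (h : JL p q Ke V J s) (I : Type) :
    (p : ℤ) • 𝟙 (∐ fun _ : I => J) = 0 :=
  Sigma.hom_ext _ _ fun i => by
    rw [Preadditive.comp_zsmul, Category.comp_id, comp_zero, ← Category.id_comp (Sigma.ι _ i),
      ← Preadditive.zsmul_comp, h.pJ, zero_comp]

theorem JL.zero_sum {V J : T} (h : JL p q Ke V J s) (I : Type) :
    Acyclic V (∐ fun _ : I => J) := by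
  have : (tensorLeft V).IsLeftAdjoint := (ihom.adjunction V).isLeftAdjoint
  refine IsZero.of_iso ?_ (PreservesCoproduct.iso (tensorLeft V) fun _ : I => J)
  rw [IsZero.iff_id_eq_zero]
  exact Sigma.hom_ext _ _ fun i => IsZero.eq_of_src h.zero _ _

/-- a basis of an abelian group killed by `p` -/
structure IsB (p : ℕ) {I U : Type} [AddCommGroup U] (B : I → U) : Prop where
  ext : ∀ (G : Type) [AddCommGroup G] (f g : U →+ G), (∀ i, f (B i) = g (B i)) → f = g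
  lift : ∀ (G : Type) [AddCommGroup G] (g : I → G), (∀ i, (p : ℤ) • g i = 0) →
    ∃ s : U →+ G, ∀ i, s (B i) = g i

theorem exists_isB [Fact p.Prime] [CharP F p] (U : Type) [AddCommGroup U] [Module F U] :
    ∃ (I : Type) (B : I → U), IsB p B := by
  obtain ⟨I, B, h₁, h₂⟩ := exists_basis p U fun u => by
    rw [← Nat.cast_smul_eq_nsmul F, CharP.cast_eq_zero, zero_smul]
  exact ⟨I, B, h₁, h₂⟩

variable {I U : Type} [AddCommGroup U] {Bs : I → U}

theorem IsB.exists_sigma (hB : IsB p Bs) {J : T} (hJ : (p : ℤ) • 𝟙 J = 0) {n : ℤ}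
    {z : Sph T n ⟶ J} (hz : Gen z) : ∃ σ : U →+ (Sph T n ⟶ ∐ fun _ : I => J),
      Function.Surjective σ ∧ ∀ i, σ (Bs i) = z ≫ Sigma.ι (fun _ : I => J) i := by
  obtain ⟨σ, hσ⟩ := hB.lift _ (fun i => z ≫ Sigma.ι (fun _ : I => J) i) fun i => by
    rw [← Preadditive.comp_zsmul, ← Category.id_comp (Sigma.ι _ i), ← Preadditive.zsmul_comp, hJ,
      zero_comp, comp_zero]
  refine ⟨σ, fun x => ?_, hσ⟩
  obtain ⟨t, g, rfl⟩ := cpt n _ x
  choose k hk using fun i => hz (g i)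
  refine ⟨∑ i ∈ t, k i • Bs i, ?_⟩
  rw [map_sum]
  exact Finset.sum_congr rfl fun i _ => by rw [map_zsmul, hσ, hk i, Preadditive.zsmul_comp]

/-- The map out of a sum of copies of `J` which realises a linear map `U → K`. -/
theorem Blk.exists_map [Module F U] (B : Blk S q Le Z lam e s) (hB : IsB p Bs) {V J : T} {s' : ℤ}
    (hJ : JL p q Ke V J s') (hP : Pair q Le J Z s) (lin : U →ₗ[F] KK F) {n₀ : ℤ}
    (h₀ : Res q s n₀) {z₀ : Sph T n₀ ⟶ J} (hz₀ : Gen z₀) :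
    ∃ w : (∐ fun _ : I => J) ⟶ Le.L.obj Z,
      (∀ σ : U →+ (Sph T n₀ ⟶ ∐ fun _ : I => J),
        (∀ i, σ (Bs i) = z₀ ≫ Sigma.ι (fun _ : I => J) i) → ∀ u, B.k n₀ h₀ (σ u ≫ w) = lin u) ∧
      (∀ n h, ∃ σ : U → (Sph T n ⟶ ∐ fun _ : I => J), Function.Surjective σ ∧
        ∀ u, B.k n h (σ u ≫ w) = lin u) ∧
      ((∀ u, th Al (lin u) = 0) → w ≫ Le.L.map (tw (lam Al.θ) e) = 0) := by
  let g : KK F ≃+ (J ⟶ Le.L.obj Z) := (B.k n₀ h₀).symm.trans
    (AddEquiv.ofBijective (Preadditive.leftComp _ z₀) (hP n₀ h₀ z₀ hz₀)).symm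
  have hg : ∀ f, B.k n₀ h₀ (z₀ ≫ g f) = f := fun f => by
    have : z₀ ≫ g f = (B.k n₀ h₀).symm f := AddEquiv.apply_symm_apply
      (AddEquiv.ofBijective (Preadditive.leftComp _ z₀) (hP n₀ h₀ z₀ hz₀)) _
    rw [this, AddEquiv.apply_symm_apply]
  have hext : ∀ a b : J ⟶ Le.L.obj Z, B.k n₀ h₀ (z₀ ≫ a) = B.k n₀ h₀ (z₀ ≫ b) → a = b :=
    fun a b h => (hP n₀ h₀ z₀ hz₀).1 ((B.k n₀ h₀).injective h)
  have key : ∀ (n : ℤ) (z : Sph T n ⟶ J) (σ : U →+ (Sph T n ⟶ ∐ fun _ : I => J)),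
      (∀ i, σ (Bs i) = z ≫ Sigma.ι (fun _ : I => J) i) →
      ∀ u, σ u ≫ (Sigma.desc fun i => g (lin (Bs i))) = z ≫ g (lin u) := fun n z σ hσ u =>
    DFunLike.congr_fun (hB.ext _ ((Preadditive.rightComp _ _).comp σ)
      ((Preadditive.leftComp _ z).comp (g.toAddMonoidHom.comp lin.toAddMonoidHom)) fun i => by
        change σ (Bs i) ≫ _ = z ≫ g (lin (Bs i))
        rw [hσ, Category.assoc, Sigma.ι_desc]) u
  refine ⟨Sigma.desc fun i => g (lin (Bs i)), fun σ hσ u => by rw [key _ _ σ hσ, hg], ?_, ?_⟩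
  · intro n h
    obtain ⟨z, hz⟩ := hJ.gen n
    obtain ⟨σ, hσ, hσ'⟩ := hB.exists_sigma hJ.pJ hz
    let φ : KK F ≃+ KK F := (g.trans
      (AddEquiv.ofBijective (Preadditive.leftComp _ z) (hP n h z hz))).trans (B.k n h)
    have hφ : ∀ f, φ f = B.k n h (z ≫ g f) := fun f => rfl
    obtain ⟨c, hc⟩ := Al.schur φ.toAddMonoidHom fun r f => by
      change φ _ = S.op r (φ f)
      rw [hφ, hφ, ← B.k_lam, Category.assoc, hext (g (S.op r f)) (g f ≫ Le.L.map (lam r)) (by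
        rw [hg, ← Category.assoc, B.k_lam, hg])]
    have hc0 : c ≠ 0 := fun h0 => one_ne_zero (φ.injective (by
      rw [map_zero, show φ 1 = c • 1 from hc 1, h0, zero_smul]))
    refine ⟨fun u => σ (c⁻¹ • u), fun x => ?_, fun u => ?_⟩
    · obtain ⟨u, rfl⟩ := hσ x
      exact ⟨c • u, by simp [smul_smul, inv_mul_cancel₀ hc0]⟩
    · rw [key _ _ σ hσ', ← hφ, show φ _ = c • _ from hc _, map_smul, smul_smul,
        mul_inv_cancel₀ hc0, one_smul]
  · intro h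
    refine Sigma.hom_ext _ _ fun i => ?_
    rw [← Category.assoc, Sigma.ι_desc, comp_zero]
    exact hext _ _ (by rw [← Category.assoc, B.k_tw Al, hg, h, comp_zero, map_zero])

end Vale.Agent.P221X.TB
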