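import Vale.Agent.P221X.TB.MD
import Vale.Agent.P221X.TA.Row
import Vale.Agent.P221X.TA.OfED

/-!
# P221X: the abstract theorem (rows TOP-A, TOP-B)
-/

noncomputable section

open CategoryTheory MonoidalCategory Limits Pretriangulated

namespace Vale.Agent.P221X

open Vale.Agent.P251 Vale.Agent.P251.T Vale.Agent.P251.S

universe u

variable {T : Type u} [Category.{0} T] [Preadditive T] [HasZeroObject T] [HasShift T ℤ]
  [∀ n : ℤ, (shiftFunctor T n).Additive] [Pretriangulated T] [IsTriangulated T]
  [MonoidalCategory T] [SymmetricCategory T] [TensorTriangulated T] [MonoidalClosed T]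
  [HasCoproducts.{0} T] [HasProducts.{0} T] [StableCat T]

theorem rowTB : RowTB T := by
  intro p _ F _ _ _ D R _ _ S b V Al h5 hF hc hV X
  obtain ⟨M⟩ := TA.md_of_ta h5 hF X
  exact M.exists_out hc hV

theorem rowTOPB : RowTOPB T := rowTOPB_of rowTA rowTB

end Vale.Agent.P221X
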